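import Mathlib
import Vale.Agent.P321.Defs
import Vale.Agent.P321.Algebra
import Vale.Agent.P321.Channel
import Vale.Agent.P321.Super.Levels

/-!
The worst case sample complexity of trace reconstruction is not bounded by a polynomial.
-/

open scoped BigOperators

noncomputable section

namespace Vale.Agent.Results.P321.SuperPoly

open Vale.Agent.P321

/-- For each deletion probability, `T_q(n)` eventually exceeds every polynomial. -/
theorem result (q : ℝ) (hq0 : 0 < q) (hq1 : q < 1) (C : ℕ) (c : ℝ) :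
    ∀ᶠ n : ℕ in Filter.atTop, Reconstructs q n (sampleComplexity q n) ∧
      c * (n : ℝ) ^ C ≤ (sampleComplexity q n : ℝ) := by
  set J := 70 * C + 1 with hJ
  obtain ⟨k, Hf, hgH, hlev⟩ := levels hq0 hq1 J
  set Lam := 2 * sExp J + 10 with hLam
  set g := gExp J with hg
  have hLg : Lam * C + 1 ≤ g := by
    have hP : 1 ≤ 2 ^ J := Nat.one_le_two_pow
    have h1 : Lam ≤ 4021 * 2 ^ J := by rw [hLam]; unfold sExp; omega
    have h2 : g = 2999 * 2 ^ J + 60 * (2 ^ J * J) := by rw [hg]; unfold gExp; ring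
    have h3 : 2 ^ J * J = 70 * (2 ^ J * C) + 2 ^ J := by rw [hJ]; ring
    have h4 : Lam * C ≤ 4021 * (2 ^ J * C) := by
      rw [← mul_assoc]; exact Nat.mul_le_mul_right _ h1
    omega
  obtain ⟨R0, hR0⟩ := Filter.eventually_atTop.1 hlev
  obtain ⟨R1, hR1⟩ : ∃ R1 : ℕ, 27 * max c 0 * 2 ^ (Lam * C) ≤ (R1 : ℝ) := ⟨_, Nat.le_ceil _⟩
  rw [Filter.eventually_atTop]
  refine ⟨(R0 + R1 + 2) ^ Lam, fun n hn => ?_⟩
  refine ⟨reconstructs_sampleComplexity hq0.le hq1 n, ?_⟩
  have hLam0 : Lam ≠ 0 := by omega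
  have hn2 : R0 + R1 + 2 ≤ n := (Nat.le_self_pow hLam0 _).trans hn
  set R := Nat.findGreatest (fun r => r ^ Lam ≤ n) n with hR
  have hRn : R ^ Lam ≤ n := Nat.findGreatest_spec (P := fun r => r ^ Lam ≤ n) hn2 hn
  have hRge : R0 + R1 + 2 ≤ R := Nat.le_findGreatest hn2 hn
  have hRlt : n < (R + 1) ^ Lam := by
    by_contra hcon
    rw [not_lt] at hcon
    have hle : R + 1 ≤ n := (Nat.le_self_pow hLam0 _).trans hcon
    have := Nat.le_findGreatest (P := fun r => r ^ Lam ≤ n) hle hcon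
    omega
  obtain ⟨T, wB, wF, hβ, hφ, hlen, hL, hdiff, -, -, -, -, hγ, hη, -⟩ := hR0 R (by omega)
  rw [← hLam] at hL
  set ℓw := (FreeMonoid.toList wB).length with hℓw
  set pre : W := FreeMonoid.ofList (List.replicate (n - ℓw) false) with hpre
  have hlw : ∀ u : W, (FreeMonoid.toList u).length = ℓw →
      (FreeMonoid.toList (pre * u)).length = n := by
    intro u hu
    rw [FreeMonoid.toList_mul, List.length_append, hu, hpre, FreeMonoid.toList_ofList,
      List.length_replicate]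
    omega
  have hne : pre * wF ≠ pre * wB := fun h => hdiff.ne (by
    have h' := congrArg FreeMonoid.toList h
    simp only [FreeMonoid.toList_mul] at h'
    exact FreeMonoid.toList.injective (List.append_cancel_left h'))
  have hR' : (R1 : ℝ) ≤ R := by exact_mod_cast (by omega : R1 ≤ R)
  have hRpos : (0 : ℝ) < R := by exact_mod_cast (by omega : 0 < R)
  have hR1' : (1 : ℝ) ≤ R := by exact_mod_cast (by omega : 1 ≤ R)
  set ε : ℝ := (R : ℝ)⁻¹ with hε
  have hdist : chiDist (mu q (pre * wF)) (mu q (pre * wB)) ≤ 3 * ε ^ g := by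
    refine (chiDist_le_l1 (mu_pos hq0.le hq1.le _) (mu_pos hq0.le hq1.le _)).trans ?_
    rw [map_mul, map_mul, ← mul_sub, ← hφ, ← hβ]
    refine (l1_mul _ _).trans ?_
    rw [l1_eq_mass (mu_pos hq0.le hq1.le _), mu_mass, one_mul]
    refine (T.dens_D.l1_le (T.posα.pow _) (mass_pow_one T.massα _) T.γ_pos.le).trans ?_
    rw [hγ, hη, ← hg]
    have := eps_anti (R := R) (by omega) hgH
    linarith
  have h9 := two_point hq0.le hq1.le (reconstructs_sampleComplexity hq0.le hq1 n) (hlw _ hlen.symm)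
    (hlw _ rfl) hne hdist
  have hT : (R : ℝ) ^ g ≤ 27 * (sampleComplexity q n : ℝ) := by
    rw [hε, inv_pow] at h9
    have hp : (0 : ℝ) < (R : ℝ) ^ g := by positivity
    rw [← div_eq_mul_inv, ← mul_div_assoc, le_div_iff₀ hp] at h9
    linarith
  have hn' : (n : ℝ) ^ C ≤ 2 ^ (Lam * C) * (R : ℝ) ^ (Lam * C) := by
    rw [← mul_pow, pow_mul]
    refine pow_le_pow_left₀ (Nat.cast_nonneg _) ?_ _
    have h1 : (n : ℝ) ≤ ((R : ℝ) + 1) ^ Lam := by exact_mod_cast hRlt.le
    refine h1.trans (pow_le_pow_left₀ (by positivity) ?_ _)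
    linarith
  have key : 27 * (max c 0 * (n : ℝ) ^ C) ≤ (R : ℝ) ^ g := by
    calc 27 * (max c 0 * (n : ℝ) ^ C) ≤ 27 * (max c 0 * (2 ^ (Lam * C) * (R : ℝ) ^ (Lam * C))) := by
          gcongr
      _ = (27 * max c 0 * 2 ^ (Lam * C)) * (R : ℝ) ^ (Lam * C) := by ring
      _ ≤ (R : ℝ) * (R : ℝ) ^ (Lam * C) :=
          mul_le_mul_of_nonneg_right (hR1.trans hR') (by positivity)
      _ = (R : ℝ) ^ (Lam * C + 1) := by rw [← pow_succ']
      _ ≤ _ := pow_le_pow_right₀ hR1' hLg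
  have : c * (n : ℝ) ^ C ≤ max c 0 * (n : ℝ) ^ C :=
    mul_le_mul_of_nonneg_right (le_max_left _ _) (by positivity)
  linarith

end Vale.Agent.Results.P321.SuperPoly
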